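import Vale.Agent.P046.H796.Cut

/-!
Uniform integrability of the squares and convergence in `L²`.
-/

set_option autoImplicit false

open scoped Classical
open Finset

namespace Vale.Agent.P046.Lv

open Vale.Agent.P046 Vale.Agent.P046.C Vale.Agent.P046.LB

/-- the truncated second moment, uniformly in the level -/
theorem cut_second :
    ∃ C0 : ℝ, 1 ≤ C0 ∧ ∀ n : ℕ, 2 ≤ n → ∀ x : ℝ, 0 < x → x ≤ (n:ℝ) ^ (1 / 1200 : ℝ) →
      expect (finalGraph n) (cutSq (x * (n:ℝ) ^ (3 / 2 : ℝ))) ≤ C0 * (n:ℝ) ^ 3 / x ^ 2 := by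
  obtain ⟨K, hKpos, hK⟩ := C.Fi.second_moment
  obtain ⟨C, hC'⟩ : ∃ C : ℝ, C = 1e60 := ⟨_, rfl⟩
  obtain ⟨K0, hK0'⟩ : ∃ K0 : ℝ, K0 = 1e100 := ⟨_, rfl⟩
  obtain ⟨κ, hκ'⟩ : ∃ κ : ℝ, κ = (1e7 * (1e-30) ^ 2) := ⟨_, rfl⟩
  obtain ⟨κL, hκL'⟩ : ∃ κL : ℝ, κL = (40000 / 1e-9) := ⟨_, rfl⟩
  obtain ⟨s0, hs0'⟩ : ∃ s0 : ℝ, s0 = 1e-40 := ⟨_, rfl⟩
  obtain ⟨η, hη'⟩ : ∃ η : ℝ, η = 1e-30 := ⟨_, rfl⟩
  have hF : ∀ n, 1000 ≤ n → FHyp (n := n) FFc C K0 κ κL s0 η := by
    intro n hn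
    rw [hC', hK0', hκ', hκL', hs0', hη']
    exact Fi.FHyp_FF hn
  have hC : 0 < C := by rw [hC']; norm_num
  have hκ : 0 < κ := by rw [hκ']; norm_num
  have hκL : 0 ≤ κL := by rw [hκL']; norm_num
  have hs0 : 0 < s0 := by rw [hs0']; norm_num
  have hs1 : s0 ≤ 1 / 10000 := by rw [hs0']; norm_num
  have hη : η ≤ 1 / 10000 := by rw [hη']; norm_num
  clear hC' hK0' hκ' hκL' hs0' hη'
  obtain ⟨A, hA⟩ : ∃ A : ℝ, A = 1 / κ := ⟨_, rfl⟩
  have hA0 : 0 < A := by rw [hA]; positivity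
  have hAκ : 1 ≤ A * κ := by
    rw [hA, one_div, inv_mul_cancel₀ hκ.ne']
  obtain ⟨B, hB⟩ : ∃ B : ℝ, B = 4 * C := ⟨_, rfl⟩
  have hB0 : 0 < B := by rw [hB]; positivity
  obtain ⟨K0', hK0'⟩ : ∃ K0' : ℝ, K0' = max K0 0 + 10000 + 65536 * B * κL * 1000 := ⟨_, rfl⟩
  have hx : 0 ≤ 65536 * B * κL * 1000 := by positivity
  have hm0 : 0 ≤ max K0 0 := le_max_right _ _
  have hm1 : K0 ≤ max K0 0 := le_max_left _ _
  have hK1 : 10000 ≤ K0' := by linarith only [hK0', hx, hm0]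
  have hK2 : K0 ≤ K0' := by linarith only [hK0', hx, hm1]
  have hK3 : 65536 * B * κL ≤ (1 / 1000) * K0' := by linarith only [hK0', hm0]
  obtain ⟨p0, hp0⟩ : ∃ p0 : ℝ, p0 = 8 + A * C + 2 * 10 ^ 13 / s0 ^ 8 := ⟨_, rfl⟩
  have hAC : 0 < A * C := by positivity
  have hs8 : 0 < 2 * 10 ^ 13 / s0 ^ 8 := by positivity
  have hp00 : 0 < p0 := by linarith only [hp0, hAC, hs8]
  obtain ⟨X1, hX1⟩ : ∃ X1 : ℝ, X1 = 4 * K0' + p0 + 1000 := ⟨_, rfl⟩
  have hX10 : 0 < X1 := by linarith only [hX1, hK1, hp00]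
  obtain ⟨Q, hQ⟩ : ∃ Q : ℝ, Q = 3 * A * C + 256 * A * B + 2 := ⟨_, rfl⟩
  have hQ0 : 0 < Q := by rw [hQ]; positivity
  have hKX : 0 ≤ K * X1 ^ 2 := by positivity
  refine ⟨16 * Q + K * X1 ^ 2 + 1, by linarith only [hQ0, hKX], fun n hn x hx0 hxp => ?_⟩
  have hn3 : (0:ℝ) < (n:ℝ) ^ 3 := by
    have : (0:ℝ) < n := by
      have : 0 < n := by omega
      exact_mod_cast this
    positivity
  have hx2 : 0 < x ^ 2 := by positivity
  -- the trivial bound for bounded levels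
  have htriv : x ≤ X1 → expect (finalGraph n) (cutSq (x * (n:ℝ) ^ (3 / 2 : ℝ))) ≤
      (16 * Q + K * X1 ^ 2 + 1) * (n:ℝ) ^ 3 / x ^ 2 := by
    intro h
    have h1 : expect (finalGraph n) (cutSq (x * (n:ℝ) ^ (3 / 2 : ℝ))) ≤ K * (n:ℝ) ^ 3 :=
      (expect_mono _ _ _ (cutSq_le _)).trans (hK n hn)
    refine h1.trans ?_
    rw [le_div_iff₀ hx2]
    have h2 : x ^ 2 ≤ X1 ^ 2 := pow_le_pow_left₀ hx0.le h 2
    have h3 : K * (n:ℝ) ^ 3 * x ^ 2 ≤ K * (n:ℝ) ^ 3 * X1 ^ 2 :=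
      mul_le_mul_of_nonneg_left h2 (by positivity)
    have h4 : 0 ≤ (16 * Q + 1) * (n:ℝ) ^ 3 := by positivity
    linarith only [h3, h4]
  obtain ⟨p, hpnn, hN⟩ := exists_p n
  have hpx : (n:ℝ) ^ (1 / 1200 : ℝ) = p := by
    rw [hN, ← Real.rpow_natCast p 1200, ← Real.rpow_mul hpnn]
    norm_num
  rw [hpx] at hxp
  by_cases hbig : p0 ≤ p ∧ 1000 ≤ n ∧ 4 * K0' ≤ x
  · obtain ⟨h1, h2, h3⟩ := hbig
    have hs : (n:ℝ) ^ (3 / 2 : ℝ) = p ^ 1800 := by
      rw [hN, ← Real.rpow_natCast p 1200, ← Real.rpow_mul hpnn, ← Real.rpow_natCast p 1800]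
      norm_num
    have h4 := cut_large n FFc A B C K0' κ κL s0 η p (x / 4) ((hF n h2).mono hK2) hη hA0 hAκ hB0
      hC.le hκL hK1 hK3 (by rw [hB]) hs0 hs1 (by linarith only [h3, hK1])
      (by nlinarith only [h3, hK1]) hn (by linarith only [h1, hp0, hAC, hs8]) hN
      (by linarith only [h1, hp0, hs8]) (by linarith only [h1, hp0, hAC])
      (by linarith only [h1, hp0, hAC, hs8, hxp]) (n.choose 2) (numEdges_top n).le
    have h5 : expect (finalGraph n) (cutSq (x * (n:ℝ) ^ (3 / 2 : ℝ))) ≤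
        V (cutSq (x / 4 * p ^ 1800)) (n.choose 2) (⊤ : SimpleGraph (Fin n)) := by
      refine expect_mono _ _ _ fun H => ?_
      rw [hs]
      unfold cutSq
      have h6 : x / 4 * p ^ 1800 ≤ x * p ^ 1800 :=
        mul_le_mul_of_nonneg_right (by linarith only [hx0]) (pow_nonneg hpnn _)
      split_ifs with h7 h8
      · exact le_refl _
      · exact absurd (h6.trans h7) h8
      · positivity
      · exact le_refl _
    refine (h5.trans h4).trans ?_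
    rw [← hQ, div_le_div_iff₀ (by positivity) hx2]
    have h7 : 0 ≤ (K * X1 ^ 2 + 1) * (n:ℝ) ^ 3 * (x / 4) ^ 2 := by positivity
    nlinarith only [h7]
  · apply htriv
    rw [not_and_or, not_and_or] at hbig
    rcases hbig with h | h | h
    · push Not at h
      linarith only [h, hxp, hX1, hK1]
    · have hn1 : (1:ℝ) ≤ n := by
        have : 1 ≤ n := by omega
        exact_mod_cast this
      have h2 : (n:ℝ) ≤ 1000 := by
        have : n ≤ 1000 := by omega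
        exact_mod_cast this
      have h3 : (n:ℝ) ^ (1 / 1200 : ℝ) ≤ (n:ℝ) ^ (1 : ℝ) :=
        Real.rpow_le_rpow_of_exponent_le hn1 (by norm_num)
      rw [hpx, Real.rpow_one] at h3
      linarith only [h3, h2, hxp, hX1, hK1, hp00]
    · push Not at h
      linarith only [h, hX1, hp00]

lemma cut_div (x s c y e : ℝ) (hs : 0 < s) (hx : 1 ≤ x) (hc0 : 0 ≤ c) (hc : c ≤ 1) (he : 0 ≤ e)
    (hy : y = e / s) :
    (y - c) ^ 2 ≤ (x + 1) * |y - c| + 1 / s ^ 2 * (if x * s ≤ e then e ^ 2 else 0) := by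
  have hy0 : 0 ≤ y := by rw [hy]; positivity
  split_ifs with h
  · have h1 : x ≤ y := by rw [hy, le_div_iff₀ hs]; exact h
    have h2 : 1 / s ^ 2 * e ^ 2 = y ^ 2 := by rw [hy]; field_simp
    rw [h2]
    have h3 := abs_nonneg (y - c)
    nlinarith only [h1, h3, hx, hc, hc0]
  · have h1 : y ≤ x := by
      rw [hy, div_le_iff₀ hs]; exact (not_le.1 h).le
    have h2 : |y - c| ≤ x + 1 := by
      rw [abs_le]; constructor <;> linarith only [h1, hy0, hc, hc0, hx]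
    have h3 : (y - c) ^ 2 = |y - c| * |y - c| := by rw [abs_mul_abs_self]; ring
    rw [h3]
    have := mul_le_mul_of_nonneg_right h2 (abs_nonneg (y - c))
    linarith only [this]

/-- convergence in quadratic mean -/
theorem l2_limit : Filter.Tendsto
    (fun n : ℕ => ∑ G, (finalGraph n G).toReal *
      ((numEdges G : ℝ) / (n : ℝ) ^ (3 / 2 : ℝ) - 1 / (2 * √2)) ^ 2) Filter.atTop (nhds 0) := by
  obtain ⟨C0, hC1, hC0⟩ := cut_second
  have hC00 : 0 < C0 := by linarith only [hC1]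
  have hc : (1:ℝ) / (2 * √2) ≤ 1 := by
    rw [div_le_one (by positivity)]
    have h1 : (1:ℝ) ≤ √2 := by rw [Real.one_le_sqrt]; norm_num
    linarith only [h1]
  have hc0 : (0:ℝ) ≤ 1 / (2 * √2) := by positivity
  rw [Metric.tendsto_atTop]
  intro η hη
  obtain ⟨x, hx1, hx2⟩ : ∃ x : ℝ, 1 ≤ x ∧ C0 / x ^ 2 < η / 2 := by
    refine ⟨1 + 2 * C0 / η, by
      have : 0 < 2 * C0 / η := by positivity
      linarith only [this], ?_⟩
    have h0 : 0 < 2 * C0 / η := by positivity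
    rw [div_lt_iff₀ (by positivity)]
    have h1 : η / 2 * (2 * C0 / η) = C0 := by field_simp
    have h2 : 2 * C0 / η < (1 + 2 * C0 / η) ^ 2 := by nlinarith only [h0]
    have h3 := mul_lt_mul_of_pos_left h2 (half_pos hη)
    linarith only [h1, h3]
  have hx0 : 0 < x := by linarith only [hx1]
  have hL1 := l1_limit core
  rw [Metric.tendsto_atTop] at hL1
  obtain ⟨n1, hn1⟩ := hL1 (η / (2 * (x + 1))) (by positivity)
  have hbig : Filter.Tendsto (fun n : ℕ => (n:ℝ) ^ (1 / 1200 : ℝ)) Filter.atTop Filter.atTop :=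
    (tendsto_rpow_atTop (by norm_num)).comp tendsto_natCast_atTop_atTop
  obtain ⟨n2, hn2⟩ := Filter.eventually_atTop.1 (hbig.eventually_ge_atTop x)
  refine ⟨n1 + n2 + 2, fun n hn => ?_⟩
  have h1 := hn1 n (by omega)
  have h2 := hC0 n (by omega) x hx0 (hn2 n (by omega))
  have hnpos : (0:ℝ) < n := by
    have : 0 < n := by omega
    exact_mod_cast this
  have hs : 0 < (n : ℝ) ^ (3 / 2 : ℝ) := Real.rpow_pos_of_pos hnpos _
  obtain ⟨s, hss⟩ : ∃ s, s = (n : ℝ) ^ (3 / 2 : ℝ) := ⟨_, rfl⟩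
  have hs3 : s ^ 2 = (n:ℝ) ^ 3 := by rw [hss]; exact Fi.s_sq n
  rw [← hss] at h1 h2 hs ⊢
  have hnn : 0 ≤ ∑ G, (finalGraph n G).toReal * |(numEdges G : ℝ) / s - 1 / (2 * √2)| :=
    Finset.sum_nonneg fun G _ => mul_nonneg ENNReal.toReal_nonneg (abs_nonneg _)
  have hnn2 : 0 ≤ ∑ G, (finalGraph n G).toReal * ((numEdges G : ℝ) / s - 1 / (2 * √2)) ^ 2 :=
    Finset.sum_nonneg fun G _ => mul_nonneg ENNReal.toReal_nonneg (sq_nonneg _)
  rw [Real.dist_eq, sub_zero, abs_of_nonneg hnn] at h1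
  rw [Real.dist_eq, sub_zero, abs_of_nonneg hnn2]
  have h3 : ∑ G, (finalGraph n G).toReal * ((numEdges G : ℝ) / s - 1 / (2 * √2)) ^ 2 ≤
      (x + 1) * ∑ G, (finalGraph n G).toReal * |(numEdges G : ℝ) / s - 1 / (2 * √2)| +
        1 / s ^ 2 * expect (finalGraph n) (cutSq (x * s)) := by
    unfold expect
    rw [Finset.mul_sum, Finset.mul_sum, ← Finset.sum_add_distrib]
    refine Finset.sum_le_sum fun G _ => ?_
    have h4 := cut_div x s (1 / (2 * √2)) _ (numEdges G : ℝ) hs hx1 hc0 hc (by positivity) rfl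
    have h5 := mul_le_mul_of_nonneg_left h4 (ENNReal.toReal_nonneg (a := finalGraph n G))
    refine h5.trans (le_of_eq ?_)
    unfold cutSq
    ring
  have h4 : 1 / s ^ 2 * expect (finalGraph n) (cutSq (x * s)) < η / 2 := by
    refine lt_of_le_of_lt ?_ hx2
    rw [one_div, inv_mul_le_iff₀ (by positivity)]
    refine h2.trans (le_of_eq ?_)
    rw [← hs3]; ring
  have h5 : (x + 1) * ∑ G, (finalGraph n G).toReal * |(numEdges G : ℝ) / s - 1 / (2 * √2)| <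
      η / 2 := by
    have h6 := mul_lt_mul_of_pos_left h1 (show (0:ℝ) < x + 1 by linarith only [hx1])
    have h7 : (x + 1) * (η / (2 * (x + 1))) = η / 2 := by
      have : x + 1 ≠ 0 := by linarith only [hx1]
      field_simp
    rw [h7] at h6
    exact h6
  linarith only [h3, h4, h5]

/-- the second moment -/
theorem square_limit : Filter.Tendsto
    (fun n : ℕ => (∑ G, (finalGraph n G).toReal * (numEdges G : ℝ) ^ 2) / (n : ℝ) ^ 3)
    Filter.atTop (nhds (1 / 8)) := by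
  have h1 := (l2_limit.add ((mean_limit core).const_mul (2 * (1 / (2 * √2))))).sub_const
    ((1 / (2 * √2)) ^ 2)
  have hval : 0 + 2 * (1 / (2 * √2)) * (1 / (2 * √2)) - (1 / (2 * √2)) ^ 2 = (1:ℝ) / 8 := by
    have h2 : (√2) ^ 2 = (2:ℝ) := Real.sq_sqrt (by norm_num)
    have h3 : √2 ≠ 0 := by positivity
    field_simp
    nlinarith only [h2]
  rw [hval] at h1
  refine h1.congr' ?_
  filter_upwards [Filter.eventually_gt_atTop 0] with n hn
  have hnpos : (0:ℝ) < n := by exact_mod_cast hn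
  obtain ⟨s, hss⟩ : ∃ s, s = (n : ℝ) ^ (3 / 2 : ℝ) := ⟨_, rfl⟩
  have hs : 0 < s := by rw [hss]; exact Real.rpow_pos_of_pos hnpos _
  have hs3 : s ^ 2 = (n:ℝ) ^ 3 := by rw [hss]; exact Fi.s_sq n
  rw [← hss, ← hs3]
  have h2 := expect_const (finalGraph n) ((1 / (2 * √2)) ^ 2)
  unfold expect at h2
  conv_lhs => rw [← h2]
  rw [Finset.sum_div, Finset.sum_div, Finset.mul_sum, ← Finset.sum_add_distrib,
    ← Finset.sum_sub_distrib]
  refine Finset.sum_congr rfl fun G _ => ?_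
  field_simp
  ring

/-- the variance is of smaller order -/
theorem variance_limit : Filter.Tendsto
    (fun n : ℕ => ((∑ G, (finalGraph n G).toReal * (numEdges G : ℝ) ^ 2) -
      (∑ G, (finalGraph n G).toReal * (numEdges G : ℝ)) ^ 2) / (n : ℝ) ^ 3)
    Filter.atTop (nhds 0) := by
  have h1 := square_limit.sub ((mean_limit core).pow 2)
  have hval : (1:ℝ) / 8 - (1 / (2 * √2)) ^ 2 = 0 := by
    have h2 : (√2) ^ 2 = (2:ℝ) := Real.sq_sqrt (by norm_num)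
    rw [div_pow, mul_pow, h2]
    norm_num
  rw [hval] at h1
  refine h1.congr fun n => ?_
  rw [div_pow, Fi.s_sq, sub_div]

/-- the tails -/
theorem tails :
    ∃ C0 : ℝ, 0 < C0 ∧ ∀ n : ℕ, 2 ≤ n → ∀ x : ℝ, 0 < x → x ≤ (n:ℝ) ^ (1 / 1200 : ℝ) →
      ((finalGraph n).toOuterMeasure
        {G | x * (n:ℝ) ^ (3 / 2 : ℝ) ≤ (numEdges G : ℝ)}).toReal ≤ C0 / x ^ 4 ∧
      ∑ G, (finalGraph n G).toReal *
        (if x * (n:ℝ) ^ (3 / 2 : ℝ) ≤ (numEdges G : ℝ) then (numEdges G : ℝ) ^ 2 else 0) ≤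
          C0 * (n:ℝ) ^ 3 / x ^ 2 := by
  obtain ⟨C0, hC1, hC0⟩ := cut_second
  refine ⟨C0, by linarith only [hC1], fun n hn x hx hxn => ?_⟩
  have h2 := hC0 n hn x hx hxn
  refine ⟨?_, h2⟩
  have hnpos : (0:ℝ) < n := by
    have : 0 < n := by omega
    exact_mod_cast this
  obtain ⟨s, hss⟩ : ∃ s, s = (n : ℝ) ^ (3 / 2 : ℝ) := ⟨_, rfl⟩
  have hs : 0 < s := by rw [hss]; exact Real.rpow_pos_of_pos hnpos _
  have hs3 : s ^ 2 = (n:ℝ) ^ 3 := by rw [hss]; exact Fi.s_sq n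
  rw [toReal_toOuterMeasure]
  rw [← hss] at h2 ⊢
  have h3 : expect (finalGraph n)
      (fun a => if a ∈ {G : SimpleGraph (Fin n) | x * s ≤ (numEdges G : ℝ)} then (1:ℝ) else 0) ≤
      expect (finalGraph n) (fun H => 1 / (x * s) ^ 2 * cutSq (x * s) H) := by
    refine expect_mono _ _ _ fun H => ?_
    by_cases h : x * s ≤ (numEdges H : ℝ)
    · have h4 : H ∈ {G : SimpleGraph (Fin n) | x * s ≤ (numEdges G : ℝ)} := h
      rw [if_pos h4]
      unfold cutSq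
      rw [if_pos h, one_div, ← div_eq_inv_mul, le_div_iff₀ (by positivity), one_mul]
      exact pow_le_pow_left₀ (by positivity) h 2
    · have h4 : H ∉ {G : SimpleGraph (Fin n) | x * s ≤ (numEdges G : ℝ)} := h
      rw [if_neg h4]
      have := cutSq_nonneg (x * s) H
      positivity
  rw [LB.expect_mul] at h3
  refine h3.trans ?_
  rw [one_div, inv_mul_le_iff₀ (by positivity)]
  refine h2.trans (le_of_eq ?_)
  rw [← hs3]
  field_simp

end Vale.Agent.P046.Lv
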