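import Vale.Agent.P046.Bdl.B6

/-!
The truncated second moment of the number of edges of the final graph.
-/

set_option autoImplicit false

open scoped Classical
open Finset

namespace Vale.Agent.P046.C

open Vale.Agent.P046 Vale.Agent.P046.OS

variable {n : ℕ}

/-- the square of the number of edges, cut off below `Es` -/
noncomputable def cutSq (Es : ℝ) (H : SimpleGraph (Fin n)) : ℝ :=
  if Es ≤ (numEdges H : ℝ) then (numEdges H : ℝ) ^ 2 else 0

lemma cutSq_le (Es : ℝ) (H : SimpleGraph (Fin n)) : cutSq Es H ≤ (numEdges H : ℝ) ^ 2 := by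
  unfold cutSq
  split_ifs
  · exact le_refl _
  · positivity

lemma cutSq_nonneg (Es : ℝ) (H : SimpleGraph (Fin n)) : 0 ≤ cutSq Es H := by
  unfold cutSq
  split_ifs
  · positivity
  · exact le_refl _

lemma V_cut_zero (Es : ℝ) (k : ℕ) (G : SimpleGraph (Fin n)) (h : (numEdges G : ℝ) < Es) :
    V (cutSq Es) k G ≤ 0 := by
  induction k generalizing G with
  | zero =>
    rw [V_zero]
    unfold cutSq
    rw [if_neg (not_le.2 h)]
  | succ k ih =>
    by_cases hT : (triangles G).Nonempty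
    · rw [V_succ_of_nonempty _ _ _ hT]
      apply div_nonpos_of_nonpos_of_nonneg _ (by positivity)
      refine Finset.sum_nonpos fun t ht => ih _ ?_
      have h5 := numEdges_removeTriangle G t ht
      have h6 : (numEdges (removeTriangle G t) : ℝ) + 3 = numEdges G := by exact_mod_cast h5
      linarith only [h, h6]
    · rw [V_of_empty _ _ _ hT]
      unfold cutSq
      rw [if_neg (not_le.2 h)]

/-- supersolutions bound the truncated second moment -/
lemma super_cut (Φ : SimpleGraph (Fin n) → ℝ) (Es : ℝ) (hEs : 0 < Es)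
    (h1 : ∀ G, Es - 3 ≤ (numEdges G : ℝ) → (numEdges G : ℝ) < Es → 0 ≤ Φ G)
    (h2 : ∀ G, Es ≤ (numEdges G : ℝ) → ((numEdges G : ℝ) ^ 2 ≤ Φ G ∨
      ((triangles G).Nonempty ∧
        ∑ t ∈ triangles G, Φ (removeTriangle G t) ≤ (triangles G).card * Φ G)))
    (k : ℕ) (G : SimpleGraph (Fin n)) (hk : numEdges G ≤ k) (h : Es ≤ (numEdges G : ℝ)) :
    V (cutSq Es) k G ≤ Φ G := by
  induction k generalizing G with
  | zero =>
    have h0 : numEdges G = 0 := by omega
    rw [h0] at h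
    simp only [Nat.cast_zero] at h
    linarith only [hEs, h]
  | succ k ih =>
    rcases h2 G h with h3 | ⟨hT, h3⟩
    · exact ((LB.V_mono _ _ (cutSq_le Es) (k + 1) G).trans (V_le_sq (k + 1) G)).trans h3
    · rw [V_succ_of_nonempty _ _ _ hT]
      have hc : (0 : ℝ) < (triangles G).card := by exact_mod_cast hT.card_pos
      rw [div_le_iff₀ hc]
      calc (∑ t ∈ triangles G, V (cutSq Es) k (removeTriangle G t))
          ≤ ∑ t ∈ triangles G, Φ (removeTriangle G t) := by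
            refine Finset.sum_le_sum fun t ht => ?_
            have h5 := numEdges_removeTriangle G t ht
            have h6 : (numEdges (removeTriangle G t) : ℝ) + 3 = numEdges G := by
              exact_mod_cast h5
            rcases lt_or_ge (numEdges (removeTriangle G t) : ℝ) Es with h7 | h7
            · exact (V_cut_zero Es k _ h7).trans (h1 _ (by linarith only [h, h6]) h7)
            · exact ih _ (by omega) h7
        _ ≤ (triangles G).card * Φ G := h3
        _ = Φ G * (triangles G).card := mul_comm _ _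

/-- parameters and the induction, truncated second moment version -/
lemma cut_large (n : ℕ) (F : SimpleGraph (Fin n) → ℝ) (A B C K0 κ κL s0 η p K1 : ℝ)
    (hF : FHyp F C K0 κ κL s0 η) (hη : η ≤ 1 / 10000) (hA : 0 < A) (hAκ : 1 ≤ A * κ)
    (hB : 0 < B) (hC : 0 ≤ C) (hκL : 0 ≤ κL) (hK0 : 10000 ≤ K0)
    (hκ : 65536 * B * κL ≤ (1 / 1000) * K0) (hCB : 4 * C ≤ B)
    (hs0 : 0 < s0) (hs1 : s0 ≤ 1 / 10000) (hK1 : 1 ≤ K1) (hK1' : K0 ≤ 4 * K1 ^ 2)
    (hn : 2 ≤ n) (hp : 2 ≤ p) (hN : (n : ℝ) = p ^ 1200)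
    (hAC : A * C ≤ p) (hs : 2 * 10 ^ 13 / s0 ^ 8 ≤ p) (hpK : 2 * K1 + 3 ≤ p)
    (k : ℕ) (hk : numEdges (⊤ : SimpleGraph (Fin n)) ≤ k) :
    V (cutSq (K1 * p ^ 1800)) k (⊤ : SimpleGraph (Fin n)) ≤
      (3 * A * C + 256 * A * B + 2) * (n : ℝ) ^ 3 / K1 ^ 2 := by
  have hp0 : 0 < p := by linarith only [hK1, hpK]
  have hp1 : 1 ≤ p := by linarith only [hK1, hpK]
  have hK10 : 0 < K1 := by linarith only [hK1]
  obtain ⟨Es, hEs⟩ : ∃ Es, Es = K1 * p ^ 1800 := ⟨_, rfl⟩
  rw [← hEs]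
  have hEs1 : p ^ 1800 ≤ Es := by
    have : 1 * p ^ 1800 ≤ K1 * p ^ 1800 := mul_le_mul_of_nonneg_right hK1 (by positivity)
    linarith only [hEs, this]
  have hEs5 : 100000 ≤ Es := by
    calc (100000:ℝ) ≤ 2 ^ 17 := by norm_num
      _ ≤ p ^ 17 := pow_le_pow_left₀ (by norm_num) hp 17
      _ ≤ p ^ 1800 := pow_le_pow_right₀ hp1 (by norm_num)
      _ ≤ Es := hEs1
  have hEs0 : 0 < Es := by linarith only [hs0, hs1, hEs5]
  have hE2 : Es ≤ 2 * K1 * p ^ 1800 := by
    have : 0 ≤ K1 * p ^ 1800 := by positivity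
    rw [hEs]; linarith only [hEs, hEs5]
  have hn0 : (0:ℝ) < n := by rw [hN]; positivity
  have hEsn : Es ^ 2 = K1 ^ 2 * (n:ℝ) ^ 3 := by rw [hEs, hN]; ring
  obtain ⟨M0, hM0⟩ : ∃ M0, M0 = A * C * ((n : ℝ) ^ 3) ^ 2 / (Es * (Es - 3)) := ⟨_, rfl⟩
  have hMle : A * C * ((n : ℝ) ^ 3) ^ 2 / Es ^ 2 ≤ M0 := by
    rw [hM0]
    apply div_le_div_of_nonneg_left (by positivity)
    · have : 0 < Es - 3 := by linarith only [hs0, hs1, hEs5]
      positivity
    · nlinarith only [hs0, hs1, hEs5]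
  obtain ⟨hNH, hP⟩ := NHyp_of n A B C K0 κ κL s0 η Es M0 p K1 hη hA hAκ hB hC hκL hK0 hκ hCB hs0 hs1
    hK1 hK1' hp hN (by rw [hEs]) hE2 hMle hAC hs hpK
  have hMbound : M0 ≤ 2 * A * C * (n:ℝ) ^ 3 / K1 ^ 2 := by
    rw [hM0]
    have h2 : 0 < Es * (Es - 3) := by
      have : 0 < Es - 3 := by linarith only [hs0, hs1, hEs5]
      positivity
    rw [div_le_div_iff₀ h2 (by positivity)]
    have h3 : K1 ^ 2 * (n:ℝ) ^ 3 ≤ 2 * (Es * (Es - 3)) := by
      rw [← hEsn]
      nlinarith only [hEs5]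
    calc A * C * ((n : ℝ) ^ 3) ^ 2 * K1 ^ 2 = (A * C * (n:ℝ) ^ 3) * (K1 ^ 2 * (n:ℝ) ^ 3) := by ring
      _ ≤ (A * C * (n:ℝ) ^ 3) * (2 * (Es * (Es - 3))) :=
          mul_le_mul_of_nonneg_left h3 (by positivity)
      _ = _ := by ring
  have hnp : (n : ℝ) ^ 3 / p ^ 2 ≤ (n:ℝ) ^ 3 / K1 ^ 2 := by
    apply div_le_div_of_nonneg_left (by positivity) (by positivity)
    exact pow_le_pow_left₀ (by positivity) (by linarith only [hpK, hK1]) 2
  have h0 : (0:ℝ) ≤ (3 * A * C + 256 * A * B + 2) * (n : ℝ) ^ 3 / K1 ^ 2 := by positivity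
  rcases lt_or_ge (numEdges (⊤ : SimpleGraph (Fin n)) : ℝ) Es with h | h
  · exact (V_cut_zero Es k _ h).trans h0
  · have hsup := super_cut (Phi F A B (A * C) Es M0 s0 (p ^ 15)) Es hEs0 (by
      intro G h1 h2
      have h3 : (numEdges G : ℝ) < (n:ℝ) ^ 2 / p ^ 15 := by linarith only [h2, hNH.hEq]
      have h4 : Phi F A B (A * C) Es M0 s0 (p ^ 15) G = PhiL F A B (A * C) Es M0 G := by
        unfold Phi; rw [if_pos h3]
      rw [h4]
      have h5 : 0 < (numEdges G : ℝ) := by linarith only [hs0, hs1, hEs5, h1]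
      have h6 := a1L_nonneg A Es (numEdges G) hA.le hEs0 h5.le
      have h7 : 0 ≤ a1L A Es (numEdges G) * F G := mul_nonneg h6 (hF.nonneg G)
      have h8 : 0 ≤ B * a1L A Es (numEdges G) / cc G ^ 4 * wheels G := by
        have := wheels_nonneg G
        have : 0 ≤ cc G := by unfold cc; positivity
        positivity
      have h9 : 0 ≤ a3L (A * C) M0 ((n:ℝ) ^ 3) Es (numEdges G) := by
        unfold a3L
        rw [hM0]
        have : A * C * ((n : ℝ) ^ 3) ^ 2 / (Es * (numEdges G : ℝ)) ≤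
            A * C * ((n : ℝ) ^ 3) ^ 2 / (Es * (Es - 3)) := by
          apply div_le_div_of_nonneg_left (by positivity)
          · have : 0 < Es - 3 := by linarith only [hs0, hs1, hEs5]
            positivity
          · exact mul_le_mul_of_nonneg_left h1 hEs0.le
        linarith only [this]
      unfold PhiL
      linarith only [h7, h8, h9])
      (fun G hG => Phi_step F A B C (A * C) K0 κ κL s0 η Es M0 (p ^ 15) hF hNH G hG)
      k ⊤ hk h
    refine hsup.trans ?_
    have htop := Phi_top n F A B C (A * C) K0 κ κL s0 η Es M0 p hF hn hA hB hC hs0 hp hN hEs0 hP hs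
    refine htop.trans ?_
    have h1 : (A * C + 256 * A * B + 2) * (n : ℝ) ^ 3 / p ^ 2 ≤
        (A * C + 256 * A * B + 2) * ((n : ℝ) ^ 3 / K1 ^ 2) := by
      rw [mul_div_assoc]
      exact mul_le_mul_of_nonneg_left hnp (by positivity)
    have h2 : (3 * A * C + 256 * A * B + 2) * (n : ℝ) ^ 3 / K1 ^ 2 =
        2 * A * C * (n:ℝ) ^ 3 / K1 ^ 2 + (A * C + 256 * A * B + 2) * ((n : ℝ) ^ 3 / K1 ^ 2) := by
      ring
    rw [h2]
    exact add_le_add hMbound h1

end Vale.Agent.P046.C
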